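import Vale.Agent.P011.H380.Model
import Vale.Agent.P011.H544.Ord

/-!
# Finitely many coordinates decide whether elements belong to the order

The general part of `H380/ChoiceS.lean` (helper380), separated from the number field files.
-/

set_option linter.unusedSectionVars false

open Module

namespace Vale.Agent.P011.H871.ChoiceG

open Vale.Agent.P011.H544 Vale.Agent.P011.H380.UpBC

variable {k A ι : Type*} [Field k] [DivisionRing A] [StarRing A] [Algebra k A] [Fintype ι]
  (a : Basis ι k A)

/-- A criterion for the elements of the order. -/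
theorem mem_ordO {O : Subring k} {x : A} (h1 : ∀ l, InL a O (x * a l))
    (h2 : ∀ l, InL a O (star x * a l)) : x ∈ ordO a O := by
  have hL : ∀ z : A, (∀ l, InL a O (z * a l)) → ∀ y, InL a O y → InL a O (z * y) := by
    intro z hz y hy
    rw [← a.sum_repr y, Finset.mul_sum]
    refine InL.sum a _ _ fun l _ => ?_
    rw [mul_smul_comm]
    exact InL.smul a (hy l) (hz l)
  exact ⟨hL x h1, hL _ h2⟩

/-- Finitely many coordinates decide. -/
theorem exists_coords (F : Finset A) : ∃ Z : Finset k, ∀ O : Subring k, (∀ z ∈ Z, z ∈ O) →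
    ∀ x ∈ F, x ∈ ordO a O := by
  classical
  refine ⟨(F ×ˢ (Finset.univ ×ˢ Finset.univ)).image
      (fun p : A × (ι × ι) ↦ a.repr (p.1 * a p.2.1) p.2.2) ∪
    (F ×ˢ (Finset.univ ×ˢ Finset.univ)).image
      (fun p : A × (ι × ι) ↦ a.repr (star p.1 * a p.2.1) p.2.2), fun O hO x hx ↦ ?_⟩
  refine mem_ordO a (fun l i ↦ hO _ ?_) fun l i ↦ hO _ ?_
  · refine Finset.mem_union_left _ (Finset.mem_image.2 ⟨(x, (l, i)), ?_, rfl⟩)
    simp [hx]
  · refine Finset.mem_union_right _ (Finset.mem_image.2 ⟨(x, (l, i)), ?_, rfl⟩)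
    simp [hx]

end Vale.Agent.P011.H871.ChoiceG
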