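import Vale.Agent.P011.H210.SplitReg
import Vale.Agent.P011.H519.SpanCSA
import Mathlib.RingTheory.PowerBasis

/-!
# Elements with a split regular image are separable

`B` a central simple algebra over `K`, `τ` a homomorphism from `K` to a field `F` and `f` a
homomorphism from `B` to the matrix ring over `F` over `τ`. An element of `B` has the same minimal
polynomial over `K` and over `F`; it is separable if the image is split regular.
-/

set_option linter.unusedSectionVars false

namespace Vale.Agent.P011.H871

open Polynomial Matrix Module

theorem separable_charpoly_of_SR {ι F : Type*} [Fintype ι] [DecidableEq ι] [Field F]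
    {g : Matrix ι ι F} (hg : g ∈ H210.SR ι F) : g.charpoly.Separable := by
  obtain ⟨h, a, ha, rfl⟩ := hg
  rw [coe_units_inv, charpoly_units_conj, charpoly_diagonal]
  exact separable_prod_X_sub_C_iff.mpr ha

section csa

variable {K B F : Type*} [Field K] [Ring B] [Algebra K B] [Algebra.IsCentral K B] [IsSimpleRing B]
  [Field F] {ι : Type*} [Fintype ι] [DecidableEq ι] [Nonempty ι]

/-- The minimal polynomial does not change under a splitting. -/
theorem minpoly_splitting (τ : K →+* F) (f : B →+* Matrix ι ι F)
    (hf : ∀ c : K, f (algebraMap K B c) = algebraMap F _ (τ c)) {x : B} (hx : IsIntegral K x) :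
    (minpoly K x).map τ = minpoly F (f x) := by
  have hind := H519.linearIndependent_map τ f hf (linearIndependent_pow (K := K) x)
  have hmon : ((minpoly K x).map τ).Monic := (minpoly.monic hx).map τ
  have hcomp : (algebraMap F (Matrix ι ι F)).comp τ = f.comp (algebraMap K B) := by
    ext1 c
    exact (hf c).symm
  have hev : aeval (f x) ((minpoly K x).map τ) = 0 := by
    rw [aeval_def, eval₂_map, hcomp, ← Polynomial.hom_eval₂, ← aeval_def, minpoly.aeval, map_zero]
  refine minpoly.unique F (f x) hmon hev fun q hq hq0 => ?_
  by_contra hlt
  rw [not_le] at hlt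
  have hnd : q.natDegree < (minpoly K x).natDegree := by
    have h1 := natDegree_lt_natDegree hq.ne_zero hlt
    rwa [natDegree_map] at h1
  have hsum : ∑ i : Fin (minpoly K x).natDegree, q.coeff i • f (x ^ (i : ℕ)) = 0 := by
    rw [aeval_def, eval₂_eq_sum_range' _ hnd, Finset.sum_range] at hq0
    rw [← hq0]
    refine Finset.sum_congr rfl fun i _ => ?_
    rw [map_pow, Algebra.smul_def]
  have h2 := Fintype.linearIndependent_iff.mp hind (fun i => q.coeff i) hsum ⟨_, hnd⟩
  exact one_ne_zero (hq.symm.trans h2)

/-- **Separability.** -/
theorem separable_of_SR (τ : K →+* F) (f : B →+* Matrix ι ι F)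
    (hf : ∀ c : K, f (algebraMap K B c) = algebraMap F _ (τ c)) {x : B} (hx : IsIntegral K x)
    (h : f x ∈ H210.SR ι F) : (minpoly K x).Separable := by
  rw [← separable_map τ, minpoly_splitting τ f hf hx]
  exact (separable_charpoly_of_SR h).of_dvd (minpoly_dvd_charpoly _)

end csa

end Vale.Agent.P011.H871
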