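import Vale.Agent.P011.H871.RingEnd
import Vale.Agent.P011.H871.SepSR
import Vale.Agent.P011.H271.NeFF
import Vale.Agent.P011.H565.P11FF
import Vale.Agent.P011.H698.T1FF
import Vale.Agent.P011.H983.TwoBasisGF

/-!
# The core over function fields, for division algebras

`NoTarget`: the unitary group of the division algebra `D` has no target for the levels away from a
split place.
-/

open Module Matrix Topology

set_option linter.unusedSectionVars false

namespace Vale.Agent.P011.H871

open Vale.Agent.P011.H738 Vale.Agent.P011.H271 Vale.Agent.P011.H74 Vale.Agent.P011.H976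
  Vale.Agent.P011.H698

section abs

variable {k K A : Type} [Field k] [Field K] [StarRing K] [Ring A] [StarRing A]
  [Algebra k K] [Algebra k A] [Algebra K A] [IsScalarTower k K A] [StarModule K A] {n : ℕ}

/-- The line statement for the Cayley transforms of the elements of `k[σ₁]`, `σ₁` split regular. -/
def LineAtF (k : Type) {K A : Type} [Field k] [Field K] [StarRing K] [Ring A] [StarRing A]
    [Algebra k K] [Algebra k A] [Algebra K A] [StarModule K A] (w : K) {F : Type*} [Field F]
    (g : A →+* Matrix (Fin n) (Fin n) F) {E : Type*} [Group E] (c : H21.UA A →* E) : Prop :=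
  ∀ σ₁ : A, star σ₁ = σ₁ → g σ₁ ∈ H210.SR (Fin n) F → ∀ σ ∈ Algebra.adjoin k {σ₁},
    c (H21.cy w σ) = 1 → ∀ b : k, c (H21.cy w (σ + algebraMap k A b)) = 1

theorem cy_central (hA : H21.AnisR A) {w : K} (hw : star w ≠ w)
    (hk : ∀ b : k, star (algebraMap k K b) = algebraMap k K b) (b : k) (g : H21.UA A) :
    H21.cy w (algebraMap k A b) * g = g * H21.cy w (algebraMap k A b) := by
  have hb : star (algebraMap k A b) = algebraMap k A b := by
    rw [IsScalarTower.algebraMap_apply k K A, H158.star_algebraMap_A, hk]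
  have h1 := H21.cy_spec hA hw hb
  have h2 := H21.cy_den hA hw hb
  -- the Cayley transform of a central element is central
  have hz : ∀ z : K, ∀ y : A, (algebraMap k A b + z • (1 : A)) * y =
      y * (algebraMap k A b + z • (1 : A)) := by
    intro z y
    rw [add_mul, mul_add, Algebra.commutes, smul_mul_assoc, one_mul, mul_smul_comm, mul_one]
  apply H21.UA_ext
  rw [Subgroup.coe_mul, Subgroup.coe_mul, Units.val_mul, Units.val_mul]
  apply h2.mul_left_injective
  change _ * _ * _ = _ * _ * _
  rw [mul_assoc, ← hz, ← mul_assoc, h1, mul_assoc, h1, hz]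

end abs

section main

variable {k K D Ω : Type} [Field k] [Field K] [StarRing K] [DivisionRing D] [StarRing D]
  [Algebra k K] [Algebra k D] [Algebra K D] [IsScalarTower k K D] [StarModule K D] {n N : ℕ}
  [Field Ω] [Algebra K Ω] {f : D →ₐ[K] Matrix (Fin n) (Fin n) Ω} {B : Basis (Fin N) k D}

/-- **The core, from the line statement.** -/
theorem false_of_line (hA : Anis k K D n) (hn : n ≠ 0) {q : Place k} {φ : K →ₐ[k] q.comp}
    {g : D →+* Matrix (Fin n) (Fin n) q.comp}
    (hφ : ∀ c : K, g (algebraMap K D c) = algebraMap q.comp _ (φ c))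
    (hspan : Submodule.span q.comp (Set.range fun x : D => (g x, (g (star x)).transpose)) = ⊤)
    {w : K} (hw : star w ≠ w) {E : Type*} [Group E] {c : H21.UA D →* E} {R : Subgroup E}
    (hT : Target0 (U := UA D) (FLv f B {q}) c R)
    (hc : ∀ u : UA D, (∀ g ∈ GA f, u * g = g * u) → c u = 1)
    (hline : LineAtF k w g c) : False := by
  have hfinE := hT.fin
  have hinf : Infinite k := infinite_of_place q
  have hA' : H21.AnisR D := H21.anisR_of_divisionRing
  have hcen := hA.central
  have hsim := hA.simple
  have hne : Nonempty (Fin n) := ⟨⟨0, Nat.pos_of_ne_zero hn⟩⟩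
  have hfK : FiniteDimensional k K := (H519.quad hA.fixed hA.star_ne).1
  have hfD : FiniteDimensional K D := FiniteDimensional.of_finrank_pos (by
    rw [hA.finrank_eq]; positivity)
  have hk : ∀ b : k, star (algebraMap k K b) = algebraMap k K b := fun b =>
    (hA.fixed _).mpr ⟨b, rfl⟩
  obtain ⟨e, he⟩ := (hA.fixed (w + star w)).mp (by rw [star_add, star_star, add_comm])
  obtain ⟨a, ha⟩ := (hA.fixed (w * star w)).mp (by rw [star_mul', star_star, mul_comm])
  have hbase : ∀ b : k, c (H21.cy w (algebraMap k D b)) = 1 := fun b =>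
    hc _ fun g _ => cy_central hA' hw hk b g
  have hone : ∀ u : H21.UA D, c u = 1 := by
    intro u
    refine H565.hom_eq_one_FF hA hn hφ hspan (U := H21.UA D) (fun g => H21.mem_UA) hw c
      (fun σ hσ hSR _ v hv => ?_) u
    have hint : IsIntegral K σ := Algebra.IsIntegral.isIntegral σ
    have h1 := eq_one_ring (k := k) (c := c) hA' hw hk he.symm ha.symm hbase hσ
      (minpoly.irreducible hint) (hline σ hσ hSR)
    have h2 : v = H21.cy w σ := by
      refine H21.UA_cancel (H21.cy_den hA' hw hσ) ?_ (H21.cy_spec hA' hw hσ)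
      rw [Algebra.algebraMap_eq_smul_one, Algebra.algebraMap_eq_smul_one] at hv
      exact hv
    rw [h2]
    exact h1
  obtain ⟨x, -, y, -, hxy⟩ := hT.nonab
  obtain ⟨u, rfl⟩ := hT.surj x
  have h1 : ∀ (v : H21.UA D) (z : E), c v * z = z * c v := fun v z => by
    rw [hone, one_mul, mul_one]
  exact hxy (h1 u y)

/-- **The line statement, every characteristic.** -/
theorem lineAt_ff (hgff : GFF k) (hA : Anis k K D n) (hn : 1 < n) {q : Place k}
    {φ : K →ₐ[k] q.comp} {g : D →+* Matrix (Fin n) (Fin n) q.comp}
    (hφ : ∀ c : K, g (algebraMap K D c) = algebraMap q.comp _ (φ c))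
    (hspan : Submodule.span q.comp (Set.range fun x : D => (g x, (g (star x)).transpose)) = ⊤)
    {w : K} (hw : star w ≠ w) {E : Type*} [Group E] {c : H21.UA D →* E} {R : Subgroup E}
    (hT : Target0 (U := UA D) (FLv f B {q}) c R)
    (hc : ∀ u : UA D, (∀ g ∈ GA f, u * g = g * u) → c u = 1) : LineAtF k w g c := by
  classical
  have hfinE := hT.fin
  have := Fintype.ofFinite E
  have hinf : Infinite k := infinite_of_place q
  have hA' : H21.AnisR D := H21.anisR_of_divisionRing
  have hcen := hA.central
  have hsim := hA.simple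
  have hne : Nonempty (Fin n) := ⟨⟨0, by omega⟩⟩
  have hSL : StarLinR k D := ⟨H519.star_smul_of_anis hA⟩
  obtain ⟨hfK, hsK, -⟩ := H519.quad hA.fixed hA.star_ne
  have hfD : FiniteDimensional K D := FiniteDimensional.of_finrank_pos (by
    rw [hA.finrank_eq]; positivity)
  have hk : ∀ b : k, star (algebraMap k K b) = algebraMap k K b := fun b =>
    (hA.fixed _).mpr ⟨b, rfl⟩
  have hgk : ∀ c : k, g (algebraMap k D c) = algebraMap q.comp _ (algebraMap k q.comp c) := by
    intro c
    rw [IsScalarTower.algebraMap_apply k K D, hφ, φ.commutes]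
  obtain ⟨e, he⟩ := (hA.fixed (w + star w)).mp (by rw [star_add, star_star, add_comm])
  obtain ⟨a, ha⟩ := (hA.fixed (w * star w)).mp (by rw [star_mul', star_star, mul_comm])
  have hbase : ∀ b : k, c (H21.cy w (algebraMap k D b)) = 1 := fun b =>
    hc _ fun g _ => cy_central hA' hw hk b g
  have chr : H983.CharOK k e := H983.charOK_gff hgff fun h2 he0 => by
    apply hw
    rw [he0, map_zero] at he
    have h3 : star w = -w := eq_neg_of_add_eq_zero_right he.symm
    have h4 : (2 : K) = 0 := by
      have h5 := congrArg (algebraMap k K) h2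
      rwa [map_ofNat, map_zero] at h5
    rw [h3, neg_eq_iff_add_eq_zero, ← two_mul, h4, zero_mul]
  intro σ₁ hσ₁ hSR σ hσ h0 b
  have hint : IsIntegral K σ₁ := Algebra.IsIntegral.isIntegral σ₁
  have hirr := minpoly.irreducible hint
  have hE : H158.CF (Algebra.adjoin K {σ₁}) := H158.CF_adjoin hσ₁ hirr
  refine H158.line_ring_FE hA' hw hk chr he.symm ha.symm hT.normal hT.min hT.cent hbase hσ₁
    (separable_of_SR (φ : K →+* q.comp) g hφ hint hSR) hE (fun u hu => ?_) hσ h0 b
  let s := H158.gen hE σ₁ (Algebra.self_mem_adjoin_singleton K σ₁)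
  have hss : star s = s := by
    apply H158.incl_injective hE
    rw [H158.incl_star]
    exact hσ₁
  exact NeFF.ne_ff hA hn (mkSpl hA hgk hspan B) (φ₀ := (φ : K →+* q.comp)) hφ hA' hw
    (H158.incl_star hE) hss hSR (H158.exists_incl hE hu) hT

/-- **The core over function fields, division algebras, every characteristic.** -/
theorem noTarget_ff (hk : IsGlobalFunctionField k) (hA : Anis k K D n) (hn : 1 < n) :
    NoTarget f B ∅ 0 := by
  have hgff := gff_of_isGlobal hk
  intro q _ _ φ g hφ hspan E _ c R hT hc
  obtain ⟨w, hw⟩ := hA.star_ne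
  exact false_of_line hA (by omega) hφ hspan hw hT hc (lineAt_ff hgff hA hn hφ hspan hw hT hc)

end main

end Vale.Agent.P011.H871
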