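import Vale.Agent.P011.H21.MobInst
import Vale.Agent.P011.H63.EndA

/-!
# The end of the pair route on the Cayley transforms of a field of symmetric elements

`A` an anisotropic ring with involution over `K`, `w` in `K` with `w* ≠ w`, `E` a field with
involution over `K` embedded in `A`, `L₁` a subfield of symmetric elements, algebraic over `k` and
with `w + w*` and `w w*` in `k`. If the homomorphism `c` to a finite group satisfies the line
statement on `L₁` and kills the Cayley transforms of the elements of `k`, then it kills the Cayley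
transforms of all elements of `L₁`.
-/

set_option linter.unusedSectionVars false

namespace Vale.Agent.P011.H871

open Vale.Agent.P011.H21 Vale.Agent.P011.H63

section

variable {k K A E : Type*} [Field k] [Field K] [StarRing K] [Ring A] [StarRing A]
  [Algebra K A] [StarModule K A] [Field E] [StarRing E] [Algebra K E] [StarModule K E]
  [Algebra k E] [Algebra k A] {w : K}

theorem cE_spec (hA : AnisR A) (hw : star w ≠ w) {φ : E →ₐ[K] A}
    (hφ : ∀ x, φ (star x) = star (φ x)) {x : E} (hx : star x = x) :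
    ((cE w φ x : Aˣ) : A) * (φ x + algebraMap K A (star w)) = φ x + algebraMap K A w := by
  have h1 : ∀ z : K, algebraMap K A z = φ (aw E z) := fun z => (φ.commutes z).symm
  rw [cE_coe hA hw hφ hx, h1, h1, ← map_add, ← map_add, ← map_mul, te,
    div_mul_cancel₀ _ (add_aw_star_ne hw hx)]

theorem eq_cE (hA : AnisR A) (hw : star w ≠ w) {φ : E →ₐ[K] A}
    (hφ : ∀ x, φ (star x) = star (φ x)) {x : E} (hx : star x = x) {u : UA A}
    (hu : ((u : Aˣ) : A) * (φ x + algebraMap K A (star w)) = φ x + algebraMap K A w) :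
    u = cE w φ x := by
  refine UA_cancel ?_ hu (cE_spec hA hw hφ hx)
  have h1 : algebraMap K A (star w) = φ (aw E (star w)) := (φ.commutes _).symm
  rw [h1, ← map_add]
  exact (IsUnit.mk0 _ (add_aw_star_ne hw hx)).map φ

/-- **The end.** -/
theorem eq_one_of_lineE [Nontrivial A] [Infinite k] {Q : Type*} [Group Q] [Finite Q]
    (hA : AnisR A) (hw : star w ≠ w) {φ : E →ₐ[K] A} (hφ : ∀ x, φ (star x) = star (φ x))
    (hk : ∀ b : k, φ (algebraMap k E b) = algebraMap k A b)
    (L₁ : IntermediateField k E) [Algebra.IsAlgebraic k L₁] (hL : ∀ x ∈ L₁, star x = x) {e a : k}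
    (he : s1 E w = algebraMap k E e) (ha : aw E w * aw E (star w) = algebraMap k E a)
    {c : UA A →* Q} (hbase : ∀ b : k, c (cE w φ (algebraMap k E b)) = 1)
    (hline : ∀ τ ∈ L₁, c (cE w φ τ) = 1 → ∀ b : k, c (cE w φ (τ + algebraMap k E b)) = 1)
    {τ : E} (hτ : τ ∈ L₁) : c (cE w φ τ) = 1 := by
  have hstarw : star (algebraMap K A w) = algebraMap K A (star w) := by
    rw [Algebra.algebraMap_eq_smul_one, star_smul, star_one, ← Algebra.algebraMap_eq_smul_one]
  have h1 : ∀ z : K, algebraMap K A z = φ (aw E z) := fun z => (φ.commutes z).symm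
  let i : L₁ →ₐ[k] A :=
    { toRingHom := (φ : E →+* A).comp (algebraMap L₁ E)
      commutes' := fun b => hk b }
  have hi : ∀ x : L₁, i x = φ (x : E) := fun _ => rfl
  have hb : ∀ b : k, algebraMap k E b ∈ L₁ := fun b => L₁.algebraMap_mem b
  have hbs : ∀ b : k, star (algebraMap k E b) = algebraMap k E b := fun b => hL _ (hb b)
  have key := end2_field (k := k) (L := L₁) (A := A) hA.an (UA A) (fun g => mem_UA) c
    (algebraMap K A w) e a ?_ ?_ ?_ i (fun x => ?_) (fun x => ?_) ?_ ?_
  · -- the Cayley transform has the form `x + y w`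
    have hν : nu w τ = τ ^ 2 + algebraMap k E e * τ + algebraMap k E a := by
      rw [nu, ← he, ← ha, s1]
      ring
    have hν0 := nu_ne hw (hL τ hτ)
    have hνm : nu w τ ∈ L₁ := by
      rw [hν]
      exact L₁.add_mem (L₁.add_mem (pow_mem hτ 2) (L₁.mul_mem (hb e) hτ)) (hb a)
    have hx : (τ ^ 2 - algebraMap k E a) / nu w τ ∈ L₁ :=
      L₁.div_mem (L₁.sub_mem (pow_mem hτ 2) (hb a)) hνm
    have hy : (2 * τ + algebraMap k E e) / nu w τ ∈ L₁ :=
      L₁.div_mem (L₁.add_mem (L₁.mul_mem (ofNat_mem L₁ 2) hτ) (hb e)) hνm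
    refine key ⟨_, hx⟩ ⟨_, hy⟩ (cE w φ τ) ?_
    rw [cE_coe hA hw hφ (hL τ hτ), hi, hi, h1, ← map_mul, ← map_add]
    congr 1
    have h3 := add_aw_star_ne (E := E) hw (hL τ hτ)
    have h4 : nu w τ = (τ + aw E w) * (τ + aw E (star w)) := rfl
    have h5 : (τ + aw E w) ^ 2 = (τ ^ 2 - algebraMap k E a) +
        (2 * τ + algebraMap k E e) * aw E w := by
      rw [← he, ← ha, s1]
      ring
    have h6 := add_aw_ne (E := E) hw (hL τ hτ)
    rw [te, div_mul_eq_mul_div, ← add_div, ← h5, h4, pow_two, mul_div_mul_left _ _ h6]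
  · rw [hstarw, h1, h1, ← map_add, ← hk]
    exact congrArg φ he
  · rw [hstarw, h1, h1, ← map_mul, ← hk]
    exact congrArg φ ha
  · rw [hstarw, h1, h1]
    exact fun h => aw_ne (E := E) hw (φ.toRingHom.injective h).symm
  · rw [hi, ← hφ, hL _ x.2]
  · rw [commute_iff_eq]
    exact Algebra.commutes w _
  · intro u hu
    rw [eq_cE hA hw hφ (x := algebraMap k E 0) (hbs 0) (u := u) ?_]
    · exact hbase 0
    · rw [map_zero, map_zero, zero_add, zero_add, ← hstarw]
      exact hu
  · intro z b u v hu hv hcu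
    rw [hi, hstarw] at hu hv
    rw [eq_cE hA hw hφ (hL _ z.2) hu] at hcu
    rw [← hk, ← map_add] at hv
    rw [eq_cE hA hw hφ (hL _ (L₁.add_mem z.2 (hb b))) hv]
    exact hline z z.2 hcu b

end

end Vale.Agent.P011.H871
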