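import Mathlib

/-!
# The group step for a pair `P < Q`, both parities, with the product relation only

`Q` is a finite group, `P` a normal subgroup which is perfect and has trivial centralizer, and
`Q / P` is abelian.  The colour sets are stable under conjugation by `P` only, the conjugating
elements of the product relation lie in `Q`, and only colours in `P` are used.

* `flat`: in a linked `P`-stable set `T` all products `u * (g y g⁻¹)`, `g` in a fixed coset of `P`,
  are conjugate in `Q`.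
* `inv_contra`: an element of `P` which is conjugate in `Q` to its inverse lies in no linked set.
* `odd_contra`: the case of odd order (no Feit-Thompson, no characters): a counting argument with
  the bijections `v ↦ v * (h v h⁻¹)` of `P`.
* `exists_colour`: there is `a ∈ P`, `a ≠ 1`, which lies in no `P`-stable set with the product
  relation for all labels in `Q`.
-/

open scoped commutatorElement

namespace Vale.Agent.P011.H871

variable {Q : Type*} [Group Q]

/-- `T` is stable under conjugation by `P`. -/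
def Stable (P : Subgroup Q) (T : Set Q) : Prop := ∀ g ∈ P, ∀ a ∈ T, g * a * g⁻¹ ∈ T

/-- The product relation with all labels in `Q`. -/
def Linked (T : Set Q) : Prop :=
  ∀ x ∈ T, ∀ y ∈ T, ∀ r : Q, IsConj (x * (r * y * r⁻¹)) (x * (r⁻¹ * y * r))

/-- The elements of `P` which may be inserted in front of `s`. -/
def hSub (P : Subgroup Q) [hP : P.Normal] {T : Set Q} (hT : Stable P T) (s : Q) : Subgroup Q where
  carrier := {g | g ∈ P ∧ ∀ u ∈ T, ∀ y ∈ T,
    IsConj (u * ((g * s) * y * (g * s)⁻¹)) (u * (s * y * s⁻¹))}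
  mul_mem' := by
    rintro g k ⟨hg, h1⟩ ⟨hk, h2⟩
    refine ⟨P.mul_mem hg hk, fun u hu y hy => ?_⟩
    have hk' : s⁻¹ * k * s ∈ P := by
      have := hP.conj_mem k hk s⁻¹
      rwa [inv_inv] at this
    have h3 := h1 u hu _ (hT _ hk' y hy)
    have e1 : (g * s) * (s⁻¹ * k * s * y * (s⁻¹ * k * s)⁻¹) * (g * s)⁻¹ =
        (g * k * s) * y * (g * k * s)⁻¹ := by group
    have e2 : s * (s⁻¹ * k * s * y * (s⁻¹ * k * s)⁻¹) * s⁻¹ = (k * s) * y * (k * s)⁻¹ := by group
    rw [e1, e2] at h3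
    exact h3.trans (h2 u hu y hy)
  one_mem' := ⟨P.one_mem, fun u _ y _ => by rw [one_mul]⟩
  inv_mem' := by
    rintro g ⟨hg, h1⟩
    refine ⟨P.inv_mem hg, fun u hu y hy => ?_⟩
    have hk' : s⁻¹ * g⁻¹ * s ∈ P := by
      have := hP.conj_mem g⁻¹ (P.inv_mem hg) s⁻¹
      rwa [inv_inv] at this
    have h3 := h1 u hu _ (hT _ hk' y hy)
    have e1 : (g * s) * (s⁻¹ * g⁻¹ * s * y * (s⁻¹ * g⁻¹ * s)⁻¹) * (g * s)⁻¹ = s * y * s⁻¹ := by
      group
    have e2 : s * (s⁻¹ * g⁻¹ * s * y * (s⁻¹ * g⁻¹ * s)⁻¹) * s⁻¹ = (g⁻¹ * s) * y * (g⁻¹ * s)⁻¹ := by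
      group
    rw [e1, e2] at h3
    exact h3.symm

theorem hSub_conj (P : Subgroup Q) [hP : P.Normal] {T : Set Q} (hT : Stable P T) (s : Q) {g p : Q}
    (hg : g ∈ hSub P hT s) (hp : p ∈ P) : p * g * p⁻¹ ∈ hSub P hT s := by
  obtain ⟨hg, h1⟩ := hg
  refine ⟨P.mul_mem (P.mul_mem hp hg) (P.inv_mem hp), fun u hu y hy => ?_⟩
  have hu' : p⁻¹ * u * p⁻¹⁻¹ ∈ T := hT _ (P.inv_mem hp) u hu
  have hk' : s⁻¹ * p⁻¹ * s ∈ P := by
    have := hP.conj_mem p⁻¹ (P.inv_mem hp) s⁻¹
    rwa [inv_inv] at this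
  have h3 := h1 _ hu' _ (hT _ hk' y hy)
  have c1 : IsConj (u * ((p * g * p⁻¹ * s) * y * (p * g * p⁻¹ * s)⁻¹))
      (p⁻¹ * u * p⁻¹⁻¹ * ((g * s) * (s⁻¹ * p⁻¹ * s * y * (s⁻¹ * p⁻¹ * s)⁻¹) * (g * s)⁻¹)) :=
    isConj_iff.2 ⟨p⁻¹, by group⟩
  have c2 : IsConj (p⁻¹ * u * p⁻¹⁻¹ * (s * (s⁻¹ * p⁻¹ * s * y * (s⁻¹ * p⁻¹ * s)⁻¹) * s⁻¹))
      (u * (s * y * s⁻¹)) :=
    isConj_iff.2 ⟨p, by group⟩
  exact (c1.trans h3).trans c2

theorem mem_hSub (P : Subgroup Q) [hP : P.Normal] {T : Set Q} (hT : Stable P T) (hl : Linked T)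
    (s : Q) {t : Q} (ht : t ∈ P) : s * t * s⁻¹ * t ∈ hSub P hT s := by
  refine ⟨P.mul_mem (hP.conj_mem t ht s) ht, fun u hu y hy => ?_⟩
  have hk' : s⁻¹ * t * s ∈ P := by
    have := hP.conj_mem t ht s⁻¹
    rwa [inv_inv] at this
  have hy' := hT _ hk' y hy
  -- label `s⁻¹`, second entry conjugated by `t`
  have h2 := hl u hu _ (hT t ht _ hy') s⁻¹
  have h3 := hl u hu _ hy' (s⁻¹ * t)
  have e1 : s⁻¹ * (t * (s⁻¹ * t * s * y * (s⁻¹ * t * s)⁻¹) * t⁻¹) * s⁻¹⁻¹ =
      s⁻¹ * t * (s⁻¹ * t * s * y * (s⁻¹ * t * s)⁻¹) * (s⁻¹ * t)⁻¹ := by group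
  have e2 : s⁻¹⁻¹ * (t * (s⁻¹ * t * s * y * (s⁻¹ * t * s)⁻¹) * t⁻¹) * s⁻¹ =
      (s * t * s⁻¹ * t * s) * y * (s * t * s⁻¹ * t * s)⁻¹ := by group
  have e3 : (s⁻¹ * t)⁻¹ * (s⁻¹ * t * s * y * (s⁻¹ * t * s)⁻¹) * (s⁻¹ * t) = s * y * s⁻¹ := by
    group
  rw [e1, e2] at h2
  rw [e3] at h3
  exact h2.symm.trans h3

/-- All products with labels in one coset of `P` are conjugate. -/
theorem flat (P : Subgroup Q) [hP : P.Normal] (hperf : P ≤ ⁅P, P⁆) {T : Set Q} (hT : Stable P T)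
    (hl : Linked T) (s : Q) {g : Q} (hg : g ∈ P) {u y : Q} (hu : u ∈ T) (hy : y ∈ T) :
    IsConj (u * ((g * s) * y * (g * s)⁻¹)) (u * (s * y * s⁻¹)) := by
  have h1 : ⁅P, P⁆ ≤ hSub P hT s := by
    rw [Subgroup.commutator_le]
    intro a ha b hb
    -- use the commutator of `a` and `b` in the form `a b a⁻¹ b⁻¹`
    have hA := mem_hSub P hT hl s (P.inv_mem ha)
    have hB := mem_hSub P hT hl s (P.inv_mem hb)
    have hC := mem_hSub P hT hl s (P.mul_mem (P.inv_mem ha) (P.inv_mem hb))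
    have hB' := hSub_conj P hT s ((hSub P hT s).inv_mem hB) ha
    have e : ⁅a, b⁆ = (a * (s * b⁻¹ * s⁻¹ * b⁻¹)⁻¹ * a⁻¹) * ((s * a⁻¹ * s⁻¹ * a⁻¹)⁻¹ *
        (s * (a⁻¹ * b⁻¹) * s⁻¹ * (a⁻¹ * b⁻¹))) := by
      rw [commutatorElement_def]; group
    rw [e]
    exact (hSub P hT s).mul_mem hB' ((hSub P hT s).mul_mem ((hSub P hT s).inv_mem hA) hC)
  exact (h1 (hperf hg)).2 u hu y hy

/-- An element conjugate to its inverse which lies in a linked set centralises `P`. -/
theorem inv_contra (P : Subgroup Q) [hP : P.Normal] (hperf : P ≤ ⁅P, P⁆) {T : Set Q}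
    (hT : Stable P T) (hl : Linked T) {a s : Q} (ha : a ∈ T) (hs : s * a * s⁻¹ = a⁻¹) {g : Q}
    (hg : g ∈ P) : g * a = a * g := by
  have h := flat P hperf hT hl s hg ha ha
  rw [hs, mul_inv_cancel, isConj_one_left] at h
  have e : (g * s) * a * (g * s)⁻¹ = g * (s * a * s⁻¹) * g⁻¹ := by group
  rw [e, hs] at h
  have h2 : g * a⁻¹ * g⁻¹ = a⁻¹ := (inv_eq_of_mul_eq_one_right h).symm
  have h3 : g * a⁻¹ = a⁻¹ * g := by rwa [mul_inv_eq_iff_eq_mul] at h2
  calc g * a = a * (a⁻¹ * g) * a := by group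
    _ = a * (g * a⁻¹) * a := by rw [h3]
    _ = a * g := by group

/-- Squaring is injective in a group of odd order. -/
theorem sq_inj [Finite Q] (hodd : Odd (Nat.card Q)) {x y : Q} (h : x * x = y * y) : x = y := by
  have hco : (Nat.card Q).Coprime 2 := Nat.coprime_two_right.2 hodd
  apply (powCoprime hco).injective
  rw [powCoprime_apply, powCoprime_apply, pow_two, pow_two, h]

theorem odd_contra [Finite Q] (hodd : Odd (Nat.card Q)) (P : Subgroup Q) [hP : P.Normal]
    (hab : ∀ x y : Q, x * y * x⁻¹ * y⁻¹ ∈ P)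
    (hcen : ∀ a ∈ P, (∀ g ∈ P, g * a = a * g) → a = 1) (hne : P ≠ ⊥)
    (hflat : ∀ a ∈ P, ∀ s : Q, ∀ g ∈ P,
      IsConj (a * ((g * s) * a * (g * s)⁻¹)) (a * (s * a * s⁻¹))) : False := by
  classical
  -- the bijections of `P`
  let sh : Q → P → P := fun h v => ⟨v * (h * v * h⁻¹), P.mul_mem v.2 (hP.conj_mem _ v.2 h)⟩
  have shv : ∀ h v, ((sh h v : P) : Q) = v * (h * v * h⁻¹) := fun _ _ => rfl
  have sinj : ∀ h, Function.Injective (sh h) := by
    intro h v w hvw
    have h1 := congrArg Subtype.val hvw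
    rw [shv, shv] at h1
    have h2 : ((v : Q) * h) * (v * h) = (w * h) * (w * h) := by
      calc ((v : Q) * h) * (v * h) = (v * (h * v * h⁻¹)) * (h * h) := by group
        _ = (w * (h * w * h⁻¹)) * (h * h) := by rw [h1]
        _ = _ := by group
    exact Subtype.ext (mul_right_cancel (sq_inj hodd h2))
  have ssurj : ∀ h, Function.Surjective (sh h) := fun h => Finite.surjective_of_injective (sinj h)
  -- conjugacy in `Q` as an equivalence relation on `P`
  let S : Setoid P :=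
    { r := fun v w => IsConj (v : Q) (w : Q)
      iseqv := ⟨fun v => IsConj.refl _, fun h => h.symm, fun h k => h.trans k⟩ }
  have hmap : ∀ h (v w : P), IsConj (v : Q) (w : Q) → IsConj (sh h v : Q) (sh h w : Q) := by
    intro h v w hvw
    obtain ⟨g, hg⟩ := isConj_iff.1 hvw
    -- `w = g v g⁻¹`
    have h1 : IsConj (sh h w : Q) ((v : Q) * ((g⁻¹ * h * g * h⁻¹ * h) * v * (g⁻¹ * h * g * h⁻¹ * h)⁻¹)) := by
      refine isConj_iff.2 ⟨g⁻¹, ?_⟩
      rw [shv, ← hg]; group
    have h2 : g⁻¹ * h * g * h⁻¹ ∈ P := by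
      have := hab g⁻¹ h
      rwa [inv_inv] at this
    exact (h1.trans (hflat v v.2 h _ h2)).symm
  have hback : ∀ h (v w : P), IsConj (sh h v : Q) (sh h w : Q) → IsConj (v : Q) (w : Q) := by
    intro h
    let f : Quotient S → Quotient S := Quotient.map (sh h) (fun v w hvw => hmap h v w hvw)
    have hsurj : Function.Surjective f := by
      intro q
      obtain ⟨w, rfl⟩ := Quotient.exists_rep q
      obtain ⟨v, rfl⟩ := ssurj h w
      exact ⟨Quotient.mk S v, rfl⟩
    have hinj : Function.Injective f := Finite.injective_iff_surjective.2 hsurj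
    intro v w hvw
    have h1 : f (Quotient.mk S v) = f (Quotient.mk S w) := Quotient.sound (s := S) hvw
    exact Quotient.exact (s := S) (hinj h1)
  -- an element with a centralizer of maximal order
  have hex : ∃ a : Q, a ∈ P ∧ a ≠ 1 := by
    by_contra hcon
    push Not at hcon
    exact hne ((Subgroup.eq_bot_iff_forall _).2 hcon)
  obtain ⟨a, ⟨haP, ha1⟩, hmax⟩ := Set.exists_max_image {a : Q | a ∈ P ∧ a ≠ 1}
    (fun a => Nat.card (Subgroup.centralizer {a})) (Set.toFinite _) hex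
  have hb : ∃ x ∈ P, x * a * x⁻¹ ≠ a := by
    by_contra hcon
    push Not at hcon
    exact ha1 (hcen a haP fun g hg => by
      have := hcon g hg
      rwa [mul_inv_eq_iff_eq_mul] at this)
  obtain ⟨x, hx, hxa⟩ := hb
  set b : Q := x * a * x⁻¹ with hbdef
  have hbP : b ∈ P := hP.conj_mem a haP x
  set d : P := ⟨a * b⁻¹, P.mul_mem haP (P.inv_mem hbP)⟩ with hd
  have hd1 : (d : Q) ≠ 1 := by
    rw [hd]
    intro h
    exact hxa (mul_inv_eq_one.1 h).symm
  choose E hE using fun g : Q => ssurj g d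
  have hE' : ∀ g : Q, (E g : Q) * (g * E g * g⁻¹) = d := fun g => by rw [← shv, hE]
  have hE1 : ∀ g, (E g : Q) ≠ 1 := by
    intro g h
    apply hd1
    rw [← hE' g, h]; group
  -- `E g * b` is conjugate to `a`
  have hconj : ∀ g : Q, IsConj a ((E g : Q) * b) := by
    intro g
    -- `g = b h`
    obtain ⟨h, rfl⟩ : ∃ h, g = b * h := ⟨b⁻¹ * g, by group⟩
    have h1 : IsConj (a * ((h * x * h⁻¹ * h) * a * (h * x * h⁻¹ * h)⁻¹)) (a * (h * a * h⁻¹)) :=
      hflat a haP h _ (hP.conj_mem x hx h)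
    have h2 : (sh h ⟨(E (b * h) : Q) * b, P.mul_mem (E (b * h)).2 hbP⟩ : Q) =
        a * ((h * x * h⁻¹ * h) * a * (h * x * h⁻¹ * h)⁻¹) := by
      rw [shv]
      have h3 := hE' (b * h)
      have h4 : ((d : P) : Q) = a * b⁻¹ := rfl
      rw [h4] at h3
      calc (E (b * h) : Q) * b * (h * ((E (b * h) : Q) * b) * h⁻¹)
          = ((E (b * h) : Q) * ((b * h) * E (b * h) * (b * h)⁻¹)) * (b * (h * b * h⁻¹)) := by group
        _ = a * b⁻¹ * (b * (h * b * h⁻¹)) := by rw [h3]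
        _ = _ := by rw [hbdef]; group
    have h5 := hback h ⟨(E (b * h) : Q) * b, P.mul_mem (E (b * h)).2 hbP⟩ ⟨a, haP⟩
      (by rw [h2]; exact h1)
    exact h5.symm
  -- counting
  have : Fintype Q := Fintype.ofFinite Q
  let I : Finset Q := Finset.univ.image fun g : Q => (E g : Q) * b
  let C : Finset Q := Finset.univ.filter fun v => IsConj a v
  have hIC : I ⊆ C.erase b := by
    intro v hv
    obtain ⟨g, -, rfl⟩ := Finset.mem_image.1 hv
    refine Finset.mem_erase.2 ⟨fun h => hE1 g ?_, Finset.mem_filter.2 ⟨Finset.mem_univ _, hconj g⟩⟩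
    simpa using h
  have hbC : b ∈ C := Finset.mem_filter.2 ⟨Finset.mem_univ _, isConj_iff.2 ⟨x, rfl⟩⟩
  have hfib : ∀ v ∈ I, (Finset.univ.filter fun g : Q => (E g : Q) * b = v).card ≤
      Nat.card (Subgroup.centralizer {a}) := by
    intro v hv
    obtain ⟨g0, -, rfl⟩ := Finset.mem_image.1 hv
    refine le_trans ?_ (hmax (E g0 : Q) ⟨(E g0).2, hE1 g0⟩)
    rw [Nat.card_eq_fintype_card, ← Finset.card_univ]
    refine Finset.card_le_card_of_injOn (fun g => if h : (E g : Q) = E g0 then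
      (⟨g0⁻¹ * g, ?_⟩ : Subgroup.centralizer {(E g0 : Q)}) else 1) (fun _ _ => Finset.mem_univ _) ?_
    · rw [Subgroup.mem_centralizer_iff]
      rintro _ rfl
      have h1 := hE' g
      rw [h, ← hE' g0] at h1
      have h2 := mul_left_cancel h1
      calc (E g0 : Q) * (g0⁻¹ * g) = g0⁻¹ * (g0 * E g0 * g0⁻¹) * g := by group
        _ = g0⁻¹ * (g * E g0 * g⁻¹) * g := by rw [h2]
        _ = _ := by group
    · intro g hg k hk hgk
      have hg' : (E g : Q) = E g0 := mul_right_cancel (Finset.mem_filter.1 hg).2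
      have hk' : (E k : Q) = E g0 := mul_right_cancel (Finset.mem_filter.1 hk).2
      simp only [hg', hk', dite_true] at hgk
      exact mul_left_cancel (congrArg Subtype.val hgk)
  have hcount : Fintype.card Q ≤ Nat.card (Subgroup.centralizer {a}) * I.card := by
    have := Finset.card_le_mul_card_image (s := (Finset.univ : Finset Q))
      (f := fun g : Q => (E g : Q) * b) (Nat.card (Subgroup.centralizer {a})) hfib
    rwa [Finset.card_univ] at this
  have hC : C.card * Nat.card (Subgroup.centralizer {a}) = Fintype.card Q := by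
    have : Fintype (ConjAct Q) := Fintype.ofFinite _
    have : Fintype (MulAction.orbit (ConjAct Q) a) := Fintype.ofFinite _
    have : Fintype (MulAction.stabilizer (ConjAct Q) a) := Fintype.ofFinite _
    have h1 : C.card = Fintype.card (MulAction.orbit (ConjAct Q) a) := by
      rw [← Set.toFinset_card]
      congr 1
      ext v
      rw [Set.mem_toFinset, ConjAct.mem_orbit_conjAct]
      exact ⟨fun h => (Finset.mem_filter.1 h).2.symm,
        fun h => Finset.mem_filter.2 ⟨Finset.mem_univ _, h.symm⟩⟩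
    rw [h1, Subgroup.nat_card_centralizer_nat_card_stabilizer, Nat.card_eq_fintype_card,
      MulAction.card_orbit_mul_card_stabilizer_eq_card_group (ConjAct Q) a]
    exact Fintype.card_congr (ConjAct.ofConjAct (G := Q)).toEquiv
  have hpos : 0 < Nat.card (Subgroup.centralizer {a}) := Nat.card_pos
  have h1 : I.card ≤ C.card - 1 := by
    rw [← Finset.card_erase_of_mem hbC]
    exact Finset.card_le_card hIC
  have h2 : 0 < C.card := Finset.card_pos.2 ⟨b, hbC⟩
  have h3 : I.card < C.card := by omega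
  have h4 : Nat.card (Subgroup.centralizer {a}) * I.card <
      Nat.card (Subgroup.centralizer {a}) * C.card := Nat.mul_lt_mul_of_pos_left h3 hpos
  rw [mul_comm _ C.card, hC] at h4
  omega

/-- **The group step.**  `P` normal in the finite group `Q`, perfect, nontrivial, with trivial
centralizer, `Q / P` abelian.  Then some `a ∈ P`, `a ≠ 1`, lies in no `P`-stable set which satisfies
the product relation (with conjugating elements and labels in `Q`). -/
theorem exists_colour [Finite Q] (P : Subgroup Q) [hP : P.Normal]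
    (hab : ∀ x y : Q, x * y * x⁻¹ * y⁻¹ ∈ P) (hperf : P ≤ ⁅P, P⁆)
    (hcen : Subgroup.centralizer (P : Set Q) = ⊥) (hne : P ≠ ⊥) :
    ∃ a ∈ P, a ≠ 1 ∧ ∀ T : Set Q, Stable P T → a ∈ T → ¬ Linked T := by
  by_contra hcon
  push Not at hcon
  have hcen' : ∀ a : Q, (∀ g ∈ P, g * a = a * g) → a = 1 := by
    intro a ha
    rw [← Subgroup.mem_bot, ← hcen]
    exact Subgroup.mem_centralizer_iff.2 ha
  rcases Nat.even_or_odd (Nat.card Q) with hev | hodd
  · have : Fact (Nat.Prime 2) := ⟨Nat.prime_two⟩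
    obtain ⟨τ, hτ⟩ := exists_prime_orderOf_dvd_card' (G := Q) 2 hev.two_dvd
    have hτ2 : τ * τ = 1 := by rw [← pow_two, ← hτ, pow_orderOf_eq_one]
    have hτ1 : τ ≠ 1 := by
      rintro rfl
      rw [orderOf_one] at hτ
      exact absurd hτ (by norm_num)
    have hi : τ⁻¹ = τ := inv_eq_of_mul_eq_one_left hτ2
    obtain ⟨t, ht, hne'⟩ : ∃ t ∈ P, t * τ ≠ τ * t := by
      by_contra h
      push Not at h
      exact hτ1 (hcen' τ h)
    have haP : t⁻¹ * (τ * t * τ⁻¹) ∈ P := P.mul_mem (P.inv_mem ht) (hP.conj_mem t ht τ)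
    have ha1 : t⁻¹ * (τ * t * τ⁻¹) ≠ 1 := by
      intro h
      rw [inv_mul_eq_one, eq_mul_inv_iff_mul_eq] at h
      exact hne' h
    obtain ⟨T, hT, haT, hl⟩ := hcon _ haP ha1
    have hs : τ * (t⁻¹ * (τ * t * τ⁻¹)) * τ⁻¹ = (t⁻¹ * (τ * t * τ⁻¹))⁻¹ := by
      have e : τ * (t⁻¹ * (τ * t * τ⁻¹)) * τ⁻¹ = τ * t⁻¹ * τ * t * (τ * τ)⁻¹ := by group
      rw [e, hτ2, inv_one, mul_one, mul_inv_rev, mul_inv_rev, mul_inv_rev, inv_inv, inv_inv, hi]
      group
    exact ha1 (hcen' _ fun g hg => inv_contra P hperf hT hl haT hs hg)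
  · refine odd_contra hodd P hab (fun a _ ha => hcen' a ha) hne fun a ha s g hg => ?_
    by_cases ha1 : a = 1
    · rw [ha1]
      exact isConj_iff.2 ⟨1, by group⟩
    · obtain ⟨T, hT, haT, hl⟩ := hcon a ha ha1
      exact flat P hperf hT hl s hg haT haT

end Vale.Agent.P011.H871
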