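import Vale.Agent.P011.H158.LineRing
import Vale.Agent.P011.H871.CoreAbs

/-!
# The end of the pair route in the ring

`σ₁` a symmetric element of the anisotropic ring `A` with irreducible minimal polynomial over `K`.
If `c` satisfies the line statement for the Cayley transforms of the elements of `k[σ₁]` and kills
the Cayley transforms of the elements of `k`, then it kills the Cayley transform of `σ₁`.
-/

set_option linter.unusedSectionVars false

namespace Vale.Agent.P011.H871

open Vale.Agent.P011.H21 Vale.Agent.P011.H158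
open Polynomial

section

variable {k K A : Type*} [Field k] [Field K] [StarRing K] [Ring A] [StarRing A]
  [Algebra k K] [Algebra k A] [Algebra K A] [IsScalarTower k K A] [StarModule K A] {w : K}

/-- The integral elements of the adjoined field come from the adjoined algebra. -/
theorem incl_mem_adjoin {E : Subalgebra K A} (hE : CF E) [FiniteDimensional k K]
    [FiniteDimensional K A] {s : FE hE} {x : FE hE} (hx : x ∈ IntermediateField.adjoin k {s}) :
    incl hE x ∈ Algebra.adjoin k {incl hE s} := by
  have i3 : FiniteDimensional k (FE hE) := FiniteDimensional.trans k K (FE hE)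
  have hint : IsIntegral k s := Algebra.IsIntegral.isIntegral s
  have h1 : x ∈ (IntermediateField.adjoin k {s}).toSubalgebra := hx
  rw [IntermediateField.adjoin_simple_toSubalgebra_of_isAlgebraic hint.isAlgebraic,
    Algebra.adjoin_singleton_eq_range_aeval] at h1
  obtain ⟨p, rfl⟩ := h1
  rw [Algebra.adjoin_singleton_eq_range_aeval]
  exact ⟨p, aeval_algHom_apply (inclk (k := k) hE) s p⟩

/-- **The end in the ring.** -/
theorem eq_one_ring {Q : Type*} [Group Q] [Finite Q] [Infinite k] [FiniteDimensional k K]
    [FiniteDimensional K A] [Nontrivial A] (hA : AnisR A) (hw : star w ≠ w)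
    (hk : ∀ b : k, star (algebraMap k K b) = algebraMap k K b) {e a : k}
    (he : w + star w = algebraMap k K e) (ha : w * star w = algebraMap k K a)
    {c : UA A →* Q} (hbase : ∀ b : k, c (cy w (algebraMap k A b)) = 1)
    {σ₁ : A} (hσ₁ : star σ₁ = σ₁) (hirr : Irreducible (minpoly K σ₁))
    (hline : ∀ σ ∈ Algebra.adjoin k {σ₁}, c (cy w σ) = 1 →
      ∀ b : k, c (cy w (σ + algebraMap k A b)) = 1) : c (cy w σ₁) = 1 := by
  obtain ⟨E, hEdef⟩ : ∃ E, E = Algebra.adjoin K {σ₁} := ⟨_, rfl⟩
  have hE : CF E := hEdef ▸ CF_adjoin hσ₁ hirr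
  have hmem : σ₁ ∈ E := hEdef ▸ Algebra.self_mem_adjoin_singleton K σ₁
  obtain ⟨s, rfl⟩ := exists_incl hE hmem
  have hss : star s = s := incl_injective hE (by rw [incl_star, hσ₁])
  have i3 : FiniteDimensional k (FE hE) := FiniteDimensional.trans k K (FE hE)
  have hL : ∀ x ∈ IntermediateField.adjoin k {s}, star x = x :=
    fun x hx => star_of_mem_adjoin hE hk hss hx
  have h1 : s1 (FE hE) w = algebraMap k (FE hE) e := by
    rw [s1, aw, aw, ← map_add, he]
    rfl
  have h2 : aw (FE hE) w * aw (FE hE) (star w) = algebraMap k (FE hE) a := by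
    rw [aw, aw, ← map_mul, ha]
    rfl
  have h3 : ∀ b : k, c (cE w (incl hE) (algebraMap k (FE hE) b)) = 1 := by
    intro b
    rw [cE, incl_algebraMap]
    exact hbase b
  have h4 : ∀ τ ∈ IntermediateField.adjoin k {s}, c (cE w (incl hE) τ) = 1 →
      ∀ b : k, c (cE w (incl hE) (τ + algebraMap k (FE hE) b)) = 1 := by
    intro τ hτ h0 b
    have h5 : incl hE τ ∈ Algebra.adjoin k {incl hE s} := incl_mem_adjoin hE hτ
    have h6 := hline (incl hE τ) h5 h0 b
    rw [cE, map_add, incl_algebraMap]
    exact h6
  exact eq_one_of_lineE (k := k) (φ := incl hE) (c := c) hA hw (incl_star hE)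
    (fun b => incl_algebraMap hE b) (IntermediateField.adjoin k {s}) hL h1 h2 h3 h4
    (IntermediateField.mem_adjoin_simple_self k s)

end

end Vale.Agent.P011.H871
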